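import Mathlib

set_option autoImplicit false

/-!
# P181, SPLIT: the number of conditions
-/

namespace Vale.Agent.P181.SPLIT.H527

theorem num {q a : ℕ} (hq : 1 ≤ q) (ha : 1 ≤ a) (L : ℕ)
    (hL : 2 * (q : ℝ) ^ 2 * Real.log (q * a) < L) :
    a ^ 2 * q ^ 2 * (q ^ 2 - 1) ^ L < (q ^ 2) ^ L := by
  have hq' : (1 : ℝ) ≤ q := by exact_mod_cast hq
  have ha' : (1 : ℝ) ≤ a := by exact_mod_cast ha
  have hq2 : (0 : ℝ) < (q : ℝ) ^ 2 := by positivity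
  have hx : (0 : ℝ) ≤ 1 - 1 / (q : ℝ) ^ 2 := by
    rw [sub_nonneg, div_le_one hq2]
    nlinarith
  have h1 : (1 - 1 / (q : ℝ) ^ 2) ^ L ≤ Real.exp (-(1 / (q : ℝ) ^ 2) * L) := by
    have h := Real.add_one_le_exp (-(1 / (q : ℝ) ^ 2))
    have h' : 1 - 1 / (q : ℝ) ^ 2 ≤ Real.exp (-(1 / (q : ℝ) ^ 2)) := by linarith
    calc (1 - 1 / (q : ℝ) ^ 2) ^ L ≤ Real.exp (-(1 / (q : ℝ) ^ 2)) ^ L :=
          pow_le_pow_left₀ hx h' L
      _ = Real.exp (-(1 / (q : ℝ) ^ 2) * L) := by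
          rw [← Real.exp_nat_mul]; ring_nf
  have h2 : ((a : ℝ) ^ 2 * (q : ℝ) ^ 2) = Real.exp (2 * Real.log (q * a)) := by
    have h3 : (0 : ℝ) < (q : ℝ) * a := by positivity
    rw [two_mul, Real.exp_add, Real.exp_log h3]
    ring
  have h4 : (a : ℝ) ^ 2 * (q : ℝ) ^ 2 * (1 - 1 / (q : ℝ) ^ 2) ^ L < 1 := by
    calc (a : ℝ) ^ 2 * (q : ℝ) ^ 2 * (1 - 1 / (q : ℝ) ^ 2) ^ L
        ≤ Real.exp (2 * Real.log (q * a)) * Real.exp (-(1 / (q : ℝ) ^ 2) * L) := by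
          rw [h2]
          exact mul_le_mul_of_nonneg_left h1 (Real.exp_pos _).le
      _ = Real.exp (2 * Real.log (q * a) + -(1 / (q : ℝ) ^ 2) * L) := (Real.exp_add _ _).symm
      _ < 1 := by
          rw [Real.exp_lt_one_iff]
          have h5 : 2 * Real.log (q * a) < L / (q : ℝ) ^ 2 := by
            rw [lt_div_iff₀ hq2]
            linarith
          have h6 : -(1 / (q : ℝ) ^ 2) * L = -(L / (q : ℝ) ^ 2) := by ring
          rw [h6]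
          linarith
  have h7 : ((a ^ 2 * q ^ 2 * (q ^ 2 - 1) ^ L : ℕ) : ℝ) < (((q ^ 2) ^ L : ℕ) : ℝ) := by
    have h8 : 1 ≤ q ^ 2 := Nat.one_le_pow _ _ hq
    push_cast [Nat.cast_sub h8]
    have h9 : ((q : ℝ) ^ 2 - 1) = (q : ℝ) ^ 2 * (1 - 1 / (q : ℝ) ^ 2) := by
      field_simp
    rw [h9, mul_pow]
    have h10 : (0 : ℝ) < ((q : ℝ) ^ 2) ^ L := by positivity
    nlinarith
  exact_mod_cast h7

end Vale.Agent.P181.SPLIT.H527
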