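import Mathlib

set_option autoImplicit false

/-!
# P181, SPLIT: random regrouping of the colours of the slots
-/

namespace Vale.Agent.P181.SPLIT.H527

open Finset Function

/-- The colourings which miss `L` independent pairs of conditions. -/
theorem count {X : Type*} [Fintype X] [DecidableEq X] {q L : ℕ} [NeZero q] (α β : Fin L → X)
    (hα : Injective α) (hβ : Injective β) (hαβ : ∀ j j', α j ≠ β j') (a b : Fin L → Fin q) :
    (univ.filter fun e : X → Fin q => ∀ j, ¬ (e (α j) = a j ∧ e (β j) = b j)).card * (q ^ 2) ^ L =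
      (q ^ 2 - 1) ^ L * q ^ Fintype.card X := by
  classical
  let π : (X → Fin q) →+ (Fin L → Fin q × Fin q) :=
    { toFun := fun e j => (e (α j), e (β j))
      map_zero' := rfl
      map_add' := fun _ _ => rfl }
  have hinj : Injective (Sum.elim α β) := by
    rintro (x | x) (y | y) h
    · exact congrArg Sum.inl (hα h)
    · exact absurd h (hαβ _ _)
    · exact absurd h.symm (hαβ _ _)
    · exact congrArg Sum.inr (hβ h)
  have hsurj : ∀ f, f ∈ Set.range π := fun f => by
    refine ⟨Function.extend (Sum.elim α β) (Sum.elim (fun j => (f j).1) (fun j => (f j).2)) 0, ?_⟩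
    funext j
    have h1 := hinj.extend_apply (Sum.elim (fun j => (f j).1) (fun j => (f j).2)) 0 (Sum.inl j)
    have h2 := hinj.extend_apply (Sum.elim (fun j => (f j).1) (fun j => (f j).2)) 0 (Sum.inr j)
    simp only [Sum.elim_inl, Sum.elim_inr] at h1 h2
    exact Prod.ext h1 h2
  set N := (univ.filter fun e : X → Fin q => π e = 0).card with hN
  have hfib : ∀ f, (univ.filter fun e : X → Fin q => π e = f).card = N := fun f =>
    AddMonoidHom.card_fiber_eq_of_mem_range π (hsurj f) (hsurj 0)
  have hgen : ∀ S : Finset (Fin L → Fin q × Fin q),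
      (univ.filter fun e : X → Fin q => π e ∈ S).card = S.card * N := by
    intro S
    rw [card_eq_sum_card_fiberwise (f := π) (t := S) (fun e he => by simpa using he)]
    rw [sum_congr rfl (g := fun _ => N), sum_const, smul_eq_mul]
    intro f hf
    rw [← hfib f]
    congr 1
    ext e
    simp only [mem_filter, mem_univ, true_and]
    exact ⟨fun h => h.2, fun h => ⟨h ▸ hf, h⟩⟩
  have hT : q ^ Fintype.card X = (q ^ 2) ^ L * N := by
    have h := hgen univ
    simp only [mem_univ, filter_true] at h
    rw [card_univ, card_univ, Fintype.card_fun, Fintype.card_fun, Fintype.card_prod,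
      Fintype.card_fin, Fintype.card_fin] at h
    rw [h, sq]
  have hS : (univ.filter fun e : X → Fin q => ∀ j, ¬ (e (α j) = a j ∧ e (β j) = b j)).card =
      (q ^ 2 - 1) ^ L * N := by
    have h := hgen (Fintype.piFinset fun j => ({(a j, b j)} : Finset (Fin q × Fin q))ᶜ)
    rw [Fintype.card_piFinset] at h
    simp only [card_compl, card_singleton, Fintype.card_prod, Fintype.card_fin, prod_const,
      card_univ] at h
    rw [sq, ← h]
    congr 1
    ext e
    simp only [mem_filter, mem_univ, true_and, Fintype.mem_piFinset, mem_compl, mem_singleton]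
    refine forall_congr' fun j => not_congr ?_
    exact ⟨fun h => Prod.ext h.1 h.2, fun h => ⟨congrArg Prod.fst h, congrArg Prod.snd h⟩⟩
  rw [hS, hT]
  ring

/-- Greedy choice of common colours in different coordinates. -/
theorem greedy {q c M : ℕ} (hq : 0 < q) (P P' : Fin q × Fin c → Fin M) (hP : Injective P)
    (hP' : Injective P') (L : ℕ) (hM : M + 2 * q * L ≤ 2 * (q * c)) :
    ∀ j ≤ L, ∃ (a b : Fin j → Fin q) (α β : Fin j → Fin c), Injective α ∧ Injective β ∧
      ∀ x, P (a x, α x) = P' (b x, β x) := by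
  classical
  intro j
  induction j with
  | zero =>
    intro _
    exact ⟨Fin.elim0, Fin.elim0, Fin.elim0, Fin.elim0, fun x => x.elim0, fun x => x.elim0,
      fun x => x.elim0⟩
  | succ j ih =>
    intro hj
    obtain ⟨a, b, α, β, hα, hβ, h⟩ := ih (by omega)
    have h1 : (univ.image P).card = q * c := by
      rw [card_image_of_injective _ hP, card_univ, Fintype.card_prod, Fintype.card_fin,
        Fintype.card_fin]
    have h2 : (univ.image P').card = q * c := by
      rw [card_image_of_injective _ hP', card_univ, Fintype.card_prod, Fintype.card_fin,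
        Fintype.card_fin]
    have h3 := card_union_add_card_inter (univ.image P) (univ.image P')
    have h4 : (univ.image P ∪ univ.image P').card ≤ M := by
      simpa using card_le_univ (univ.image P ∪ univ.image P')
    have h5 : 2 * q * L ≤ (univ.image P ∩ univ.image P').card := by omega
    set U := ((univ ×ˢ univ.image α).image P) ∪ ((univ ×ˢ univ.image β).image P') with hU
    have h6 : U.card ≤ 2 * q * j := by
      refine (card_union_le _ _).trans ?_
      have e1 : ((univ ×ˢ univ.image α).image P).card ≤ q * j := by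
        refine card_image_le.trans ?_
        rw [card_product, card_univ, Fintype.card_fin]
        exact Nat.mul_le_mul_left _ (card_image_le.trans (by simp))
      have e2 : ((univ ×ˢ univ.image β).image P').card ≤ q * j := by
        refine card_image_le.trans ?_
        rw [card_product, card_univ, Fintype.card_fin]
        exact Nat.mul_le_mul_left _ (card_image_le.trans (by simp))
      calc _ ≤ q * j + q * j := Nat.add_le_add e1 e2
        _ = 2 * q * j := by ring
    have h7 : U.card < (univ.image P ∩ univ.image P').card := by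
      have : 2 * q * j < 2 * q * L := Nat.mul_lt_mul_of_pos_left (by omega) (by omega)
      omega
    obtain ⟨x, hx, hxU⟩ := exists_mem_notMem_of_card_lt_card h7
    rw [mem_inter, mem_image, mem_image] at hx
    obtain ⟨⟨⟨a', α'⟩, -, hx1⟩, ⟨⟨b', β'⟩, -, hx2⟩⟩ := hx
    have hα' : α' ∉ Set.range α := by
      rintro ⟨y, rfl⟩
      apply hxU
      rw [hU, mem_union]
      left
      rw [mem_image]
      exact ⟨(a', α y), by simp, hx1⟩
    have hβ' : β' ∉ Set.range β := by
      rintro ⟨y, rfl⟩
      apply hxU
      rw [hU, mem_union]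
      right
      rw [mem_image]
      exact ⟨(b', β y), by simp, hx2⟩
    refine ⟨Fin.cons a' a, Fin.cons b' b, Fin.cons α' α, Fin.cons β' β,
      Fin.cons_injective_iff.2 ⟨hα', hα⟩, Fin.cons_injective_iff.2 ⟨hβ', hβ⟩, fun y => ?_⟩
    refine Fin.cases ?_ (fun y => ?_) y
    · simp only [Fin.cons_zero]
      rw [hx1, hx2]
    · simp only [Fin.cons_succ]
      exact h y

/-- **[S2]** the slots can be regrouped so that all the blocks of different slots share a colour. -/
theorem split {d q c M L : ℕ} [NeZero q] (hM : M + 2 * q * L ≤ 2 * (q * c))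
    (hnum : d ^ 2 * q ^ 2 * (q ^ 2 - 1) ^ L < (q ^ 2) ^ L)
    (P : Fin d → Fin q × Fin c → Fin M) (hP : ∀ i, Function.Injective (P i)) :
    ∃ ε : Fin d → Fin c → Fin q, ∀ i k, i ≠ k → ∀ t u : Fin q,
      ∃ s s' : Fin c, P i (t + ε i s, s) = P k (u + ε k s', s') := by
  classical
  by_contra hne
  push Not at hne
  have hq : 0 < q := Nat.pos_of_ne_zero (NeZero.ne q)
  let Bad : (Fin d × Fin d) × (Fin q × Fin q) → Finset (Fin d × Fin c → Fin q) := fun x =>
    univ.filter fun e => ∀ s s', P x.1.1 (x.2.1 + e (x.1.1, s), s) ≠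
      P x.1.2 (x.2.2 + e (x.1.2, s'), s')
  have key : ∀ x : (Fin d × Fin d) × (Fin q × Fin q), x.1.1 ≠ x.1.2 →
      (Bad x).card * (q ^ 2) ^ L ≤ (q ^ 2 - 1) ^ L * q ^ (d * c) := by
    rintro ⟨⟨i, k⟩, t, u⟩ hik
    obtain ⟨a, b, α, β, hα, hβ, h⟩ := greedy hq (P i) (P k) (hP i) (hP k) L hM L le_rfl
    have hc := count (X := Fin d × Fin c) (fun j => (i, α j)) (fun j => (k, β j))
      (fun j j' hj => hα (Prod.mk.inj hj).2) (fun j j' hj => hβ (Prod.mk.inj hj).2)
      (fun j j' hj => hik (Prod.mk.inj hj).1) (fun j => a j - t) (fun j => b j - u)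
    rw [Fintype.card_prod, Fintype.card_fin, Fintype.card_fin] at hc
    rw [← hc]
    refine Nat.mul_le_mul_right _ (card_le_card ?_)
    intro e he
    simp only [Bad, mem_filter, mem_univ, true_and] at he ⊢
    rintro j ⟨h1, h2⟩
    apply he (α j) (β j)
    rw [h1, h2, add_sub_cancel, add_sub_cancel]
    exact h j
  have hcov : (univ : Finset (Fin d × Fin c → Fin q)) ⊆
      ((univ : Finset ((Fin d × Fin d) × (Fin q × Fin q))).filter fun x => x.1.1 ≠ x.1.2).biUnion
        Bad := by
    intro e _
    obtain ⟨i, k, hik, t, u, h⟩ := hne fun i s => e (i, s)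
    rw [mem_biUnion]
    refine ⟨((i, k), (t, u)), by simpa using hik, ?_⟩
    simp only [Bad, mem_filter, mem_univ, true_and]
    exact h
  have h1 := (card_le_card hcov).trans card_biUnion_le
  rw [card_univ, Fintype.card_fun, Fintype.card_prod, Fintype.card_fin, Fintype.card_fin,
    Fintype.card_fin] at h1
  have h2 : q ^ (d * c) * (q ^ 2) ^ L ≤ d ^ 2 * q ^ 2 * ((q ^ 2 - 1) ^ L * q ^ (d * c)) := by
    refine (Nat.mul_le_mul_right _ h1).trans ?_
    rw [sum_mul]
    refine (sum_le_card_nsmul _ _ ((q ^ 2 - 1) ^ L * q ^ (d * c)) fun x hx =>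
      key x (mem_filter.1 hx).2).trans ?_
    rw [smul_eq_mul]
    refine Nat.mul_le_mul_right _ ((card_le_univ _).trans ?_)
    rw [Fintype.card_prod, Fintype.card_prod, Fintype.card_prod, Fintype.card_fin,
      Fintype.card_fin]
    exact le_of_eq (by ring)
  have h3 : 0 < q ^ (d * c) := Nat.pow_pos hq
  have h4 : q ^ (d * c) * (d ^ 2 * q ^ 2 * (q ^ 2 - 1) ^ L) < q ^ (d * c) * (q ^ 2) ^ L :=
    Nat.mul_lt_mul_of_pos_left hnum h3
  have h5 : d ^ 2 * q ^ 2 * ((q ^ 2 - 1) ^ L * q ^ (d * c)) =
      q ^ (d * c) * (d ^ 2 * q ^ 2 * (q ^ 2 - 1) ^ L) := by ring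
  omega

end Vale.Agent.P181.SPLIT.H527
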