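import Vale.Agent.P181.SPLIT.H412.Fin
import Vale.Agent.P181.SPLIT.H527.Split
import Vale.Agent.P181.SPLIT.H527.Num

set_option autoImplicit false

/-!
# P181, SPLIT: closed form
-/

namespace Vale.Agent.P181.SPLIT.H527

open Vale.Agent.P181.SPLIT.H412 Vale.Agent.P181 Vale.Agent.P181.H280

theorem splitStmt : SplitStmt := by
  intro d q c M L _ h1 h2 P hP
  exact split h1 h2 P hP

theorem numStmt : NumStmt := by
  intro q a h1 h2 L h3
  exact num h1 h2 L h3

/-- **SPLIT**: Foulkes' inequality for `b = q a` and `lam i ≤ 2 b - 4 q³ log b - 2 q`. -/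
theorem main {q a : ℕ} (hq : 1 ≤ q) (ha : 1 ≤ a) (n : ℕ) (lam : Fin n → ℕ)
    (hlam : ∀ i, (lam i : ℝ) + 4 * (q : ℝ) ^ 3 * Real.log (q * a) + 2 * q ≤ 2 * (q * a)) :
    plethMult a (q * a) n lam ≤ plethMult (q * a) a n lam :=
  main_of splitStmt numStmt hq ha n lam hlam

/-- General form: `N` slots, forms of degree `c`, `q`-th powers. -/
theorem general {N q c L : ℕ} (hN : 1 ≤ N) (hq : 1 ≤ q)
    (hnum : N ^ 2 * q ^ 2 * (q ^ 2 - 1) ^ L < (q ^ 2) ^ L) (n : ℕ) (lam : Fin n → ℕ)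
    (hlam : ∀ i, lam i + 2 * q * L ≤ 2 * (q * c)) (h0 : 1 ≤ c) :
    plethMult N (q * c) n lam ≤ plethMult (q * N) c n lam :=
  general_of splitStmt hN hq hnum n lam hlam h0

end Vale.Agent.P181.SPLIT.H527
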